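import Vale.Agent.P092.H268.Re.Chn
import Vale.Agent.P092.H264.S2Sl
import Vale.Agent.P092.H387.Qt5
import Vale.Agent.P092.H793.Re.L4

/-!
P092, project RE (helper259): chains for the central quotients of the groups with self-adjoint
realisations, by averaging the gauges of helper268 over the centre.
-/

set_option linter.all false

open Matrix Filter Topology Set

namespace Vale.Agent.P092.H259.Re

open Vale.Agent.P092.H793.Re
open Vale.Agent.P092.H701 (HChain)
open Vale.Agent.P092.H268.Re (Plane ops ops_spec tendsto_ops exists_plane comm_exp_exp)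
open Vale.Agent.P092.H264 (Chn)

section quo

variable {H : Type*} [Group H] [TopologicalSpace H] [IsTopologicalGroup H] (P : Plane H)
  (Z : Subgroup H) [Z.Normal] [Fintype Z]

/-- the averaged gauge -/
noncomputable def avN (x : H ⧸ Z) (v : ℝ × ℝ) : ℝ :=
  Quotient.liftOn' x (fun x : H => ∑ z : Z, P.N (x * z) v) (by
    intro a b hab
    have h1 : a⁻¹ * b ∈ Z := QuotientGroup.leftRel_apply.1 hab
    refine (Fintype.sum_equiv (Equiv.mulLeft (⟨a⁻¹ * b, h1⟩ : Z)) _ _ fun x => ?_).symm
    rw [Equiv.coe_mulLeft, Subgroup.coe_mul]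
    congr 1
    group)

theorem avN_mk (x : H) (v : ℝ × ℝ) : avN P Z (x : H ⧸ Z) v = ∑ z : Z, P.N (x * z) v := rfl

theorem avN_mul (g x : H) (v : ℝ × ℝ) :
    avN P Z ((g : H ⧸ Z) * (x : H ⧸ Z)) v = ∑ z : Z, P.N (g * (x * z)) v := by
  rw [← QuotientGroup.mk_mul, avN_mk]
  simp only [mul_assoc]

/-- the gauge on the quotient -/
noncomputable def quo : Plane (H ⧸ Z) where
  N := avN P Z
  m := P.m
  hm := P.hm
  cont := by
    rw [← ((QuotientGroup.isOpenQuotientMap_mk (N := Z)).prodMap
      (IsOpenQuotientMap.id (X := ℝ × ℝ))).continuous_comp_iff]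
    show Continuous fun z : H × (ℝ × ℝ) => ∑ c : Z, P.N (z.1 * c) z.2
    refine continuous_finsetSum _ fun c _ => ?_
    exact P.cont.comp ((continuous_fst.mul continuous_const).prodMk continuous_snd)
  hom := by
    intro x s hs v
    induction x using QuotientGroup.induction_on with
    | H x =>
      rw [avN_mk, avN_mk, Finset.mul_sum]
      exact Finset.sum_congr rfl fun c _ => P.hom _ s hs v
  pos := by
    intro x v hv
    induction x using QuotientGroup.induction_on with
    | H x =>
      rw [avN_mk]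
      exact Finset.sum_pos (fun c _ => P.pos _ v hv) ⟨1, Finset.mem_univ _⟩
  up := fun t => (P.up t : H ⧸ Z)
  lo := fun t => (P.lo t : H ⧸ Z)
  cont_up := QuotientGroup.continuous_mk.comp P.cont_up
  cont_lo := QuotientGroup.continuous_mk.comp P.cont_lo
  upN := by
    intro t x v
    induction x using QuotientGroup.induction_on with
    | H x =>
      rw [avN_mul, avN_mk]
      exact Finset.sum_congr rfl fun c _ => P.upN t _ v
  loN := by
    intro t x v
    induction x using QuotientGroup.induction_on with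
    | H x =>
      rw [avN_mul, avN_mk]
      exact Finset.sum_congr rfl fun c _ => P.loN t _ v

end quo

variable {n : ℕ} {G : Type} [Group G] [TopologicalSpace G] {ρ : G →* SLn n}

/-- **[RE-C] for the central quotients.** -/
theorem chn_quo (hρ : RS ρ) {h : Fin n → ℝ} {r : ℕ} {p q : Fin r → Fin n}
    {w : Fin r → Fin n → ℝ} {E : Fin r → Mat n} (hs : Sr ρ h p q w E) (Z : Subgroup G)
    [Z.Normal] (hZ : Z ≤ Subgroup.center G) : Chn (G ⧸ Z) r := by
  haveI := topGroup hρ.emb
  haveI := finite_center hρ
  haveI hfZ : Finite Z :=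
    Finite.of_injective (Subgroup.inclusion hZ) (Subgroup.inclusion_injective hZ)
  haveI := Fintype.ofFinite Z
  have hZc : IsCompact (Z : Set G) := (Set.toFinite (Z : Set G)).isCompact
  letI : MeasurableSpace (G ⧸ Z) := borel (G ⧸ Z)
  haveI : BorelSpace (G ⧸ Z) := ⟨rfl⟩
  choose P c hup hlo hc hb using fun j => exists_plane hρ hs j
  have hcomm : ∀ i j, i ≠ j → diagonal (w i) * E j = E j * diagonal (w i) := by
    intro i j hij
    have h1 := hs.Ew j (w i) (hs.wl i)
    rw [hs.dual j i, if_neg hij.symm, zero_smul, sub_eq_zero] at h1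
    exact h1
  have hcommT : ∀ i j, i ≠ j → diagonal (w i) * (E j)ᵀ = (E j)ᵀ * diagonal (w i) := by
    intro i j hij
    have h1 := congrArg transpose (hcomm i j hij)
    rw [transpose_mul, transpose_mul, diagonal_transpose] at h1
    exact h1.symm
  refine ⟨{ b := fun j N => QuotientGroup.mk' Z (ops (hs.wl j) N)
            K := fun j => (quo (P j) Z).K
            compact := fun j => (quo (P j) Z).isCompact_K
            comm_b := ?_
            comm_K := ?_
            pp := ?_ }, fun hr => H387.Qt.tendsto_quo Z hZc (tendsto_ops hρ (hs.wl ⟨0, hr⟩) _ _ (by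
              rw [hs.dual, if_pos rfl]))⟩
  · intro i j _ N M
    rw [← map_mul, ← map_mul]
    congr 1
    apply ρ_inj hρ.emb
    rw [H268.Re.val_mul, H268.Re.val_mul, ops_spec, ops_spec]
    refine comm_exp_exp ?_ _ _
    rw [diagonal_mul_diagonal, diagonal_mul_diagonal]
    congr 1
    funext b
    exact mul_comm _ _
  · intro i j hij N x hx
    rcases hx with ⟨t, -, rfl⟩ | ⟨t, -, rfl⟩
    · show QuotientGroup.mk' Z (ops (hs.wl i) N) * QuotientGroup.mk' Z ((P j).up t) =
        QuotientGroup.mk' Z ((P j).up t) * QuotientGroup.mk' Z (ops (hs.wl i) N)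
      rw [← map_mul, ← map_mul]
      congr 1
      apply ρ_inj hρ.emb
      rw [H268.Re.val_mul, H268.Re.val_mul, ops_spec, hup]
      exact comm_exp_exp (hcomm i j hij.ne) _ _
    · show QuotientGroup.mk' Z (ops (hs.wl i) N) * QuotientGroup.mk' Z ((P j).lo t) =
        QuotientGroup.mk' Z ((P j).lo t) * QuotientGroup.mk' Z (ops (hs.wl i) N)
      rw [← map_mul, ← map_mul]
      congr 1
      apply ρ_inj hρ.emb
      rw [H268.Re.val_mul, H268.Re.val_mul, ops_spec, hlo]
      exact comm_exp_exp (hcommT i j hij.ne) _ _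
  · intro j k
    have hα : Tendsto (fun i : ℕ => Real.exp (-(i : ℝ))) atTop (𝓝 0) :=
      Real.tendsto_exp_neg_atTop_nhds_zero.comp tendsto_natCast_atTop_atTop
    refine (quo (P j) Z).pp (fun N => QuotientGroup.mk' Z (ops (hs.wl j) N)) (c j)
      (fun i => Real.exp (-(i : ℝ))) (hc j) (fun i => Real.exp_pos _) hα ?_ k
    intro i x v
    induction x using QuotientGroup.induction_on with
    | H x =>
      show avN (P j) Z ((QuotientGroup.mk (ops (hs.wl j) i) : G ⧸ Z) * (x : G ⧸ Z)) v =
        c j i * avN (P j) Z (x : G ⧸ Z) _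
      rw [avN_mul, avN_mk, Finset.mul_sum]
      exact Finset.sum_congr rfl fun z _ => hb j _ i (ops_spec (hs.wl j) i) _ v

end Vale.Agent.P092.H259.Re
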