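import Vale.Agent.P092.H259.Re.Qf
import Vale.Agent.P092.H259.Re.ChnQ
import Vale.Agent.P092.H19.Re.Hm
import Vale.Agent.P092.H35.RePol
import Vale.Agent.P092.H790.TgtMrg
import Vale.Agent.P092.H387.Qt4

/-!
P092, project RE (helper259), [RE-F]: every noncompact connected simple real linear group, and every
central quotient of it, is in the class `QF`.
-/

set_option linter.all false

open Matrix Filter Topology

namespace Vale.Agent.P092.H259.Re

open Vale.Agent.P092.H793.Re

/-- [RE-S] -/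
theorem hmgB : HmgB := by
  intro n G _ _ ρ h r p q w E hρ hD hS
  exact H19.Re.hmg hρ hD hS (fun φ X hX => had hρ hD.lie φ hX) (gen hρ)
    (H35.RePol.car ρ h p q w E hρ hD hS)

/-- [RE-C] -/
theorem chnB : ChnB := by
  intro n G _ _ ρ h r p q w E hρ hD hS
  exact H268.Re.chn hρ hS

/-- [RE-C] for central quotients -/
theorem chnZB : ChnZB := by
  intro n G _ _ ρ h r p q w E hρ hD hS Z _ hZ
  exact chn_quo hρ hS Z hZ

/-- [RE-T] -/
theorem tgtB : TgtB := by
  intro n G _ _ ρ h r p q w E hρ hD hS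
  exact H790.Mrg.tgt_of_Car H35.RePol.car hρ hD hS

variable {n : ℕ} {G : Type} [Group G] [TopologicalSpace G] {ρ : G →* SLn n}

/-- **Every noncompact connected simple real linear group is in the class `QF`.** -/
theorem qf_real (hρ : RS ρ) : ∃ r, QC.QF G r := qf_of hmgB chnB tgtB hρ

/-- **.. together with all its central quotients.** -/
theorem qf_real_quo (hρ : RS ρ) : ∃ r, QC.QF G r ∧
    ∀ (Z : Subgroup G) [Z.Normal], Z ≤ Subgroup.center G → QC.QF (G ⧸ Z) r := by
  obtain ⟨ρ', h, hρ', hD⟩ := H155.Re.exDg ρ hρ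
  obtain ⟨r, p, q, w, E, hS⟩ := exSr ρ' h hρ' hD
  have h1 : QC.QF G r := qf_sr (hmgB ρ' h p q w E hρ' hD hS) (chnB ρ' h p q w E hρ' hD hS)
    (tgtB ρ' h p q w E hρ' hD hS) hρ' hD hS
  exact ⟨r, h1, fun Z _ hZ => H387.Qt.qf_quo h1 Z hZ (chnZB ρ' h p q w E hρ' hD hS Z hZ)⟩

end Vale.Agent.P092.H259.Re
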