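import Vale.Agent.P092.UN.ClsR
import Vale.Agent.P092.H259.Re.Real
import Vale.Agent.P092.H465.QfC

/-!
P092, project RE (helper259): the groups of the class `UN.IsReal` are in the class `QF`.
-/

set_option linter.all false

open Matrix Filter Topology

namespace Vale.Agent.P092.H259.Re

open Vale.Agent.P092.H793.Re

theorem rs_of_isRS {n : ℕ} {S : Subgroup (SpecialLinearGroup (Fin n) ℝ)} (h : UN.IsRS S) :
    RS (S.subtype : S →* SLn n) := by
  obtain ⟨h1, h2, h3, ⟨g, hg, g', hg', h4⟩, h5, h6, h7⟩ := h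
  exact
  { emb := h1.isClosedEmbedding_subtypeVal
    conn := isPreconnected_iff_preconnectedSpace.1 h2
    adj := fun g => ⟨⟨_, h6 g.1 g.2⟩, rfl⟩
    sqrt := fun h hh ⟨g, hg⟩ => ⟨⟨h, h7 h hh (by
      have : (g : SpecialLinearGroup (Fin n) ℝ) = h * h := hg
      rw [← this]; exact g.2)⟩, rfl⟩
    nc := fun hc => h3 (isCompact_iff_compactSpace.2 hc)
    nab := ⟨⟨g, hg⟩, ⟨g', hg'⟩, fun h => h4 (congrArg Subtype.val h)⟩
    simple := h5 }

/-- **Every group of the class `IsReal` is in the class `QF`**. -/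
theorem isReal_qf {G : Type} [Group G] [TopologicalSpace G] (h : UN.IsReal G) :
    ∃ r, QC.QF G r := by
  obtain ⟨n, S, hS, f, hf, hk⟩ := h
  obtain ⟨r, -, h2⟩ := qf_real_quo (rs_of_isRS hS)
  exact ⟨r, H465.qf_of_quo h2 f hf hk⟩

end Vale.Agent.P092.H259.Re
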