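import Vale.Agent.P092.H259.Re.Rec
import Vale.Agent.P092.H15.HMAbs
import Vale.Agent.P092.PA.FacInst

/-!
P092, project RE (helper259), [RE-F] part 3: a group with a self-adjoint realisation, modulo its
centre, is a factor.
-/

set_option linter.all false

open Matrix Filter Topology

namespace Vale.Agent.P092.H259.Re

open Vale.Agent.P092.H793.Re
open Vale.Agent.P092.H15 (HMG)

variable {n : ℕ} {G : Type} [Group G] [TopologicalSpace G] {ρ : G →* SLn n}

/-- **The facts on the factor** `G / Z(G)`. -/
theorem facS_re (hρ : RS ρ) (hf : Finite (Subgroup.center G)) {h : Fin n → ℝ}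
    (hl : Lie ρ (diagonal h)) {a b : Fin n} (hab : h a < h b) (hm : PA.HM G) :
    PA.FacS (PQ G) := by
  haveI := top hρ
  haveI := t2 hρ
  haveI := lc hρ
  haveI := sc hρ
  have hfin : ((Subgroup.center G : Subgroup G) : Set G).Finite := Set.toFinite _
  haveI hcl : IsClosed ((Subgroup.center G : Subgroup G) : Set G) := hfin.isClosed
  exact
  { top := inferInstance
    lc := inferInstance
    sc := inferInstance
    t2 := inferInstance
    nc := PA.nc_quot _ hfin.isCompact hρ.nc
    simple := PA.simple_quot hρ.simple
    cent := PA.cent_quot hfin fun g hg => cent hρ g hg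
    hom := PA.hom_quot (fun A _ f => hom_eq_one hρ hf A f) _
    recu := rec_re hρ hf hl hab
    hm := hm.quot _ }

/-- The facts of helper259. -/
theorem cf_re (hρ : RS ρ) (hf : Finite (Subgroup.center G)) : H259.Cf G where
  fin := hf
  cen g hg := by
    haveI := top hρ
    exact cent hρ g (hg.mem_nhds (Subgroup.one_mem _))

end Vale.Agent.P092.H259.Re
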