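import Vale.Agent.P092.H259.Re.Fac
import Vale.Agent.P092.H793.Re.L4
import Vale.Agent.P092.H155.ReD
import Vale.Agent.P092.QC.Final

/-!
P092, project RE (helper259), [RE-F] part 4: every noncompact connected simple real linear group is in
the class `QF`, given the blocks.
-/

set_option linter.all false

open Matrix Filter Topology

namespace Vale.Agent.P092.H259.Re

open Vale.Agent.P092.H793.Re
open Vale.Agent.P092.H15 (HMG)
open Vale.Agent.P092.H264 (Chn)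
open Vale.Agent.P092.H515 (Tgt)

/-- [RE-S] -/
def HmgB : Prop :=
  ∀ {n : ℕ} {G : Type} [Group G] [TopologicalSpace G] (ρ : G →* SLn n) (h : Fin n → ℝ) {r : ℕ}
    (p q : Fin r → Fin n) (w : Fin r → Fin n → ℝ) (E : Fin r → Mat n), RS ρ → Dg ρ h →
    Sr ρ h p q w E → HMG G

/-- [RE-C] -/
def ChnB : Prop :=
  ∀ {n : ℕ} {G : Type} [Group G] [TopologicalSpace G] (ρ : G →* SLn n) (h : Fin n → ℝ) {r : ℕ}
    (p q : Fin r → Fin n) (w : Fin r → Fin n → ℝ) (E : Fin r → Mat n), RS ρ → Dg ρ h →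
    Sr ρ h p q w E → Chn G r

/-- [RE-C], with all central quotients -/
def ChnZB : Prop :=
  ∀ {n : ℕ} {G : Type} [Group G] [TopologicalSpace G] (ρ : G →* SLn n) (h : Fin n → ℝ) {r : ℕ}
    (p q : Fin r → Fin n) (w : Fin r → Fin n → ℝ) (E : Fin r → Mat n), RS ρ → Dg ρ h →
    Sr ρ h p q w E → ∀ (Z : Subgroup G) [Z.Normal], Z ≤ Subgroup.center G → Chn (G ⧸ Z) r

/-- [RE-T] -/
def TgtB : Prop :=
  ∀ {n : ℕ} {G : Type} [Group G] [TopologicalSpace G] (ρ : G →* SLn n) (h : Fin n → ℝ) {r : ℕ}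
    (p q : Fin r → Fin n) (w : Fin r → Fin n → ℝ) (E : Fin r → Mat n), RS ρ → Dg ρ h →
    Sr ρ h p q w E → Tgt G r

variable {n : ℕ} {G : Type} [Group G] [TopologicalSpace G] {ρ : G →* SLn n}

theorem qf_sr (hm : HMG G) {r : ℕ} (hc : Chn G r) (ht : Tgt G r) (hρ : RS ρ) {h : Fin n → ℝ}
    {p q : Fin r → Fin n} {w : Fin r → Fin n → ℝ} {E : Fin r → Mat n} (hD : Dg ρ h)
    (hS : Sr ρ h p q w E) : QC.QF G r := by
  haveI := top hρ
  have hf := finite_center hρ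
  exact
  { top := top hρ
    lc := lc hρ
    sc := sc hρ
    t2 := H259.Re.t2 hρ
    fin := hf
    fac := facS_re hρ hf hD.lie (hS.hpq ⟨0, hS.pos⟩) (PA.hm_of_howeMoore hm.howeMoore)
    hmg := hm
    chn := hc
    tgt := ht
    pos := hS.pos
    erg := Or.inl hρ.conn }

/-- **Every noncompact connected simple real linear group is in the class `QF`**, given the
blocks. -/
theorem qf_of (hm : HmgB) (hc : ChnB) (ht : TgtB) (hρ : RS ρ) : ∃ r, QC.QF G r := by
  obtain ⟨ρ', h, hρ', hD⟩ := H155.Re.exDg ρ hρ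
  obtain ⟨r, p, q, w, E, hS⟩ := exSr ρ' h hρ' hD
  exact ⟨r, qf_sr (hm ρ' h p q w E hρ' hD hS) (hc ρ' h p q w E hρ' hD hS)
    (ht ρ' h p q w E hρ' hD hS) hρ' hD hS⟩

end Vale.Agent.P092.H259.Re
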