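import Vale.Agent.P092.H259.Re.Top
import Vale.Agent.P092.H714.Cl5
import Mathlib.Analysis.SpecialFunctions.Exponential

/-!
P092, project RE (helper259), [RE-F] part 2: recurrence of conjugation.
-/

set_option linter.all false

open Matrix Filter Topology

namespace Vale.Agent.P092.H259.Re

open Vale.Agent.P092.H793.Re

variable {n : ℕ} {G : Type} [Group G] [TopologicalSpace G] {ρ : G →* SLn n}

theorem exp_diag (x : Fin n → ℝ) :
    NormedSpace.exp (diagonal x) = diagonal fun a => Real.exp (x a) := by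
  rw [Matrix.exp_diagonal]
  congr 1
  funext a
  rw [Pi.coe_exp, Real.exp_eq_exp_ℝ]

theorem exists_diag {x : Fin n → ℝ} (h : Lie ρ (diagonal x)) (t : ℝ) :
    ∃ g, (ρ g).1 = diagonal fun a => Real.exp (t * x a) := by
  obtain ⟨g, hg⟩ := h t
  refine ⟨g, hg.trans ?_⟩
  have : t • (diagonal x : Mat n) = diagonal fun a => t * x a := by
    ext i j
    by_cases hij : i = j
    · subst hij; simp
    · simp [diagonal_apply_ne _ hij]
  rw [this, exp_diag]

theorem val_mul (g g' : G) : (ρ (g * g')).1 = (ρ g).1 * (ρ g').1 := by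
  rw [map_mul]; rfl

theorem val_mul_inv (g : G) : (ρ g).1 * (ρ g⁻¹).1 = 1 := by
  rw [← val_mul, mul_inv_cancel, map_one]; rfl

theorem val_inv_mul (g : G) : (ρ g⁻¹).1 * (ρ g).1 = 1 := by
  rw [← val_mul, inv_mul_cancel, map_one]; rfl

theorem val_inv_eq {g : G} {A : Mat n} (h : (ρ g).1 * A = 1) : (ρ g⁻¹).1 = A := by
  have h1 := val_inv_mul (ρ := ρ) g
  calc (ρ g⁻¹).1 = (ρ g⁻¹).1 * ((ρ g).1 * A) := by rw [h, mul_one]
    _ = A := by rw [← mul_assoc, h1, one_mul]

/-- the inverse of a diagonal element -/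
theorem val_inv_diag {g : G} {x : Fin n → ℝ} (h : (ρ g).1 = diagonal fun a => Real.exp (x a)) :
    (ρ g⁻¹).1 = diagonal fun a => Real.exp (-(x a)) := by
  apply val_inv_eq
  rw [h, diagonal_mul_diagonal]
  rw [← diagonal_one]
  congr 1
  funext a
  rw [← Real.exp_add, add_neg_cancel, Real.exp_zero]

theorem val_conj_diag {d : G} {x : Fin n → ℝ} (h : (ρ d).1 = diagonal fun a => Real.exp (x a))
    (g : G) (a b : Fin n) :
    (ρ (d * g * d⁻¹)).1 a b = Real.exp (x a - x b) * (ρ g).1 a b := by
  rw [val_mul, val_mul, val_inv_diag h, h, mul_diagonal, diagonal_mul, sub_eq_add_neg,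
    Real.exp_add]
  ring

theorem blockTriangular_inv {h : Fin n → ℝ} {g : G} (hg : BlockTriangular (ρ g).1 h) :
    BlockTriangular (ρ g⁻¹).1 h := by
  have hi : (ρ g⁻¹).1 = ((ρ g).1)⁻¹ := by
    rw [eq_comm]
    exact Matrix.inv_eq_left_inv (val_inv_mul g)
  haveI : Invertible (ρ g).1 := ⟨(ρ g⁻¹).1, val_inv_mul g, val_mul_inv g⟩
  rw [hi]
  exact blockTriangular_inv_of_blockTriangular hg

/-- The elements all of whose conjugates are block triangular. -/
def bt (ρ : G →* SLn n) (h : Fin n → ℝ) : Subgroup G where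
  carrier := {x | ∀ k : G, BlockTriangular (ρ (k * x * k⁻¹)).1 h}
  one_mem' := fun k => by
    have : k * 1 * k⁻¹ = 1 := by group
    rw [this, map_one]
    exact blockTriangular_one
  mul_mem' := fun {x y} hx hy k => by
    have : k * (x * y) * k⁻¹ = (k * x * k⁻¹) * (k * y * k⁻¹) := by group
    rw [this, val_mul]
    exact (hx k).mul (hy k)
  inv_mem' := fun {x} hx k => by
    have : k * x⁻¹ * k⁻¹ = (k * x * k⁻¹)⁻¹ := by group
    rw [this]
    exact blockTriangular_inv (hx k)

theorem bt_normal (h : Fin n → ℝ) : (bt ρ h).Normal where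
  conj_mem := fun x hx g k => by
    have : k * (g * x * g⁻¹) * k⁻¹ = (k * g) * x * (k * g)⁻¹ := by group
    rw [this]
    exact hx (k * g)

/-- If all elements are block triangular, the diagonal elements are central. -/
theorem central_of_bt (hρ : RS ρ) {h : Fin n → ℝ} (H : ∀ x : G, BlockTriangular (ρ x).1 h) {d : G}
    {t : ℝ} (hd : (ρ d).1 = diagonal fun a => Real.exp (t * h a)) : d ∈ Subgroup.center G := by
  rw [Subgroup.mem_center_iff]
  intro x
  have h1 : d * x * d⁻¹ = x := by
    apply hρ.emb.injective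
    apply Subtype.ext
    ext a b
    rw [val_conj_diag hd]
    rcases lt_trichotomy (h a) (h b) with hab | hab | hab
    · obtain ⟨x', hx'⟩ := hρ.adj x
      have := H x' hab
      rw [hx', transpose_apply] at this
      rw [this, mul_zero]
    · rw [hab, sub_self, Real.exp_zero, one_mul]
    · rw [H x hab, mul_zero]
  calc x * d = (d * x * d⁻¹) * d := by rw [h1]
    _ = d * x := by group

theorem bt_le_center (hρ : RS ρ) (hf : Finite (Subgroup.center G)) {h : Fin n → ℝ}
    (hl : Lie ρ (diagonal h)) {a b : Fin n} (hab : h a < h b) : bt ρ h ≤ Subgroup.center G := by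
  rcases hρ.simple (bt ρ h) (bt_normal h) with h1 | h1
  · exact h1
  · exfalso
    have H : ∀ x : G, BlockTriangular (ρ x).1 h := fun x => by
      have hx : x ∈ bt ρ h := by rw [h1]; trivial
      have := hx 1
      rwa [one_mul, inv_one, mul_one] at this
    choose d hd using fun t : ℝ => exists_diag hl t
    have hc : ∀ t, d t ∈ Subgroup.center G := fun t => central_of_bt hρ H (hd t)
    have hinj : Function.Injective fun t : ℝ => (⟨d t, hc t⟩ : Subgroup.center G) := by
      intro s t hst
      have h2 : d s = d t := congrArg Subtype.val hst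
      have h3 : ∀ c, s * h c = t * h c := fun c => by
        have h4 : (ρ (d s)).1 c c = (ρ (d t)).1 c c := by rw [h2]
        rw [hd, hd, diagonal_apply_eq, diagonal_apply_eq] at h4
        exact Real.exp_injective h4
      have h5 : (s - t) * (h b - h a) = 0 := by
        have := h3 a
        have := h3 b
        linarith
      rcases mul_eq_zero.1 h5 with h6 | h6
      · linarith
      · linarith
    haveI := hf
    haveI := Finite.of_injective _ hinj
    exact not_finite ℝ

/-- Recurrence, before the quotient. -/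
theorem rec_aux (hρ : RS ρ) (hf : Finite (Subgroup.center G)) {h : Fin n → ℝ}
    (hl : Lie ρ (diagonal h)) {a b : Fin n} (hab : h a < h b) (z : G)
    (hz : z ∉ Subgroup.center G) : ∃ (f : G → ℝ) (D : G) (q : ℝ), Continuous f ∧
      1 < q ∧ (∀ g, f (D * g * D⁻¹) = q * f g) ∧
      (∀ g, ∀ c ∈ Subgroup.center G, f (g * c) = f g) ∧ 0 < f z := by
  haveI := top hρ
  haveI := hf
  haveI := Fintype.ofFinite (Subgroup.center G)
  have h1 : z ∉ bt ρ h := fun h => hz (bt_le_center hρ hf hl hab h)
  have h2 : ∃ k : G, ∃ i j, h j < h i ∧ (ρ (k * z * k⁻¹)).1 i j ≠ 0 := by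
    by_contra hcon
    push Not at hcon
    exact h1 fun k i j hij => hcon k i j hij
  obtain ⟨k, i, j, hij, hne⟩ := h2
  obtain ⟨d, hd⟩ := exists_diag hl 1
  have hd' : (ρ d).1 = diagonal fun a => Real.exp (h a) := by simpa using hd
  have hcont : Continuous fun x : G => |(ρ (k * x * k⁻¹)).1 i j| := by
    have c1 : Continuous fun x : G => (ρ (k * x * k⁻¹)).1 :=
      (emb_val hρ).continuous.comp (by fun_prop : Continuous fun x : G => k * x * k⁻¹)
    exact ((continuous_apply j).comp ((continuous_apply i).comp c1)).abs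
  refine ⟨fun x => ∑ c : Subgroup.center G, |(ρ (k * (x * c) * k⁻¹)).1 i j|, k⁻¹ * d * k,
    Real.exp (h i - h j), ?_, ?_, ?_, ?_, ?_⟩
  · exact continuous_finsetSum _ fun c _ => hcont.comp (continuous_mul_const (c : G))
  · exact Real.one_lt_exp_iff.2 (by linarith)
  · intro g
    dsimp only
    rw [Finset.mul_sum]
    refine Finset.sum_congr rfl fun c _ => ?_
    have hc : ∀ x : G, x * (c : G) = c * x := fun x => Subgroup.mem_center_iff.1 c.2 x
    have e : k * (k⁻¹ * d * k * g * (k⁻¹ * d * k)⁻¹ * (c : G)) * k⁻¹ =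
        d * (k * (g * c) * k⁻¹) * d⁻¹ := by
      have e1 : k⁻¹ * d * k * g * (k⁻¹ * d * k)⁻¹ * (c : G) =
          k⁻¹ * d * k * (g * c) * (k⁻¹ * d * k)⁻¹ := by
        rw [mul_assoc (k⁻¹ * d * k * g), hc, ← mul_assoc, mul_assoc (k⁻¹ * d * k) g]
      rw [e1]
      group
    rw [e, val_conj_diag hd', abs_mul, abs_of_pos (Real.exp_pos _)]
  · intro g c hc
    dsimp only
    refine Fintype.sum_equiv (Equiv.mulLeft (⟨c, hc⟩ : Subgroup.center G)) _ _ fun x => ?_
    rw [Equiv.coe_mulLeft, Subgroup.coe_mul, mul_assoc g]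
  · dsimp only
    refine Finset.sum_pos' (fun c _ => abs_nonneg _) ⟨1, Finset.mem_univ _, ?_⟩
    rw [Subgroup.coe_one, mul_one]
    exact abs_pos.2 hne

theorem rec_re (hρ : RS ρ) (hf : Finite (Subgroup.center G)) {h : Fin n → ℝ}
    (hl : Lie ρ (diagonal h)) {a b : Fin n} (hab : h a < h b) : PA.Rec (PQ G) := by
  haveI := top hρ
  exact H714.Cl.rec_pq fun z hz => rec_aux hρ hf hl hab z hz

end Vale.Agent.P092.H259.Re
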