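import Vale.Agent.P092.H793.Re.Defs
import Mathlib.Topology.Algebra.Group.Basic
import Mathlib.Topology.Algebra.OpenSubgroup
import Mathlib.LinearAlgebra.Matrix.Block

/-!
P092, project RE (helper259), [RE-F] part 1: topology of the groups with a self-adjoint realisation,
open subgroups, the commutator subgroup, and elements all of whose conjugates are block triangular.
-/

set_option linter.all false

open Matrix Filter Topology

namespace Vale.Agent.P092.H259.Re

open Vale.Agent.P092.H793.Re

variable {n : ℕ} {G : Type} [Group G] [TopologicalSpace G] {ρ : G →* SLn n}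

theorem top (hρ : RS ρ) : IsTopologicalGroup G := hρ.emb.isInducing.topologicalGroup ρ

theorem emb_val (hρ : RS ρ) : IsClosedEmbedding fun g : G => (ρ g).1 :=
  (Matrix.SpecialLinearGroup.isClosedEmbedding_val (n := Fin n) (R := ℝ)).comp hρ.emb

theorem t2 (hρ : RS ρ) : T2Space G := (emb_val hρ).isEmbedding.t2Space

theorem sc (hρ : RS ρ) : SecondCountableTopology G := by
  haveI : SecondCountableTopology (Mat n) :=
    inferInstanceAs (SecondCountableTopology (Fin n → Fin n → ℝ))
  exact (emb_val hρ).isEmbedding.secondCountableTopology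

theorem lc (hρ : RS ρ) : LocallyCompactSpace G := by
  haveI : LocallyCompactSpace (Mat n) :=
    inferInstanceAs (LocallyCompactSpace (Fin n → Fin n → ℝ))
  exact (emb_val hρ).locallyCompactSpace

/-- An open subgroup of a connected group is everything. -/
theorem eq_top_of_open {G : Type*} [Group G] [TopologicalSpace G] [IsTopologicalGroup G]
    [PreconnectedSpace G] {H : Subgroup G} (h : (H : Set G) ∈ 𝓝 1) : H = ⊤ := by
  have ho : IsOpen (H : Set G) := Subgroup.isOpen_of_mem_nhds H h
  have hc : IsClosed (H : Set G) := Subgroup.isClosed_of_isOpen H ho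
  have := IsClopen.eq_univ (s := (H : Set G)) ⟨hc, ho⟩ ⟨1, H.one_mem⟩
  exact SetLike.coe_injective (by rw [this]; rfl)

theorem cent (hρ : RS ρ) (g : G) (h : ((Subgroup.centralizer {g} : Subgroup G) : Set G) ∈ 𝓝 1) :
    g ∈ Subgroup.center G := by
  haveI := top hρ
  haveI := hρ.conn
  have h1 := eq_top_of_open h
  rw [Subgroup.mem_center_iff]
  intro x
  have hx : x ∈ Subgroup.centralizer {g} := by rw [h1]; trivial
  exact (Subgroup.mem_centralizer_iff.1 hx g rfl).symm

/-- A continuous map from a connected space to a finite set of a Hausdorff space is constant. -/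
theorem const_of_finite {X Y : Type*} [TopologicalSpace X] [PreconnectedSpace X]
    [TopologicalSpace Y] [T2Space Y] {f : X → Y} (hf : Continuous f) {S : Set Y} (hS : S.Finite)
    (h : ∀ x, f x ∈ S) (x y : X) : f x = f y := by
  haveI : Finite S := hS
  have h1 : Continuous fun x => (⟨f x, h x⟩ : S) := hf.subtype_mk h
  exact congrArg Subtype.val (PreconnectedSpace.constant inferInstance h1 : (⟨f x, h x⟩ : S) = ⟨f y, h y⟩)

/-- The group is perfect. -/
theorem commutator_eq_top (hρ : RS ρ) (hf : Finite (Subgroup.center G)) : commutator G = ⊤ := by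
  haveI := top hρ
  haveI := hρ.conn
  haveI := t2 hρ
  rcases hρ.simple (commutator G) inferInstance with h | h
  · exfalso
    obtain ⟨a, b, hab⟩ := hρ.nab
    have hfin : ((Subgroup.center G : Subgroup G) : Set G).Finite := Set.toFinite _
    have hc : Continuous fun x : G => x * b * x⁻¹ * b⁻¹ := by fun_prop
    have h2 := const_of_finite hc hfin (fun x => h (Subgroup.commutator_mem_commutator
      (Subgroup.mem_top x) (Subgroup.mem_top b))) a 1
    have h3 : a * b * a⁻¹ * b⁻¹ = 1 := by
      rw [h2]
      group
    apply hab
    calc a * b = (a * b * a⁻¹ * b⁻¹) * b * a := by group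
      _ = b * a := by rw [h3, one_mul]
  · exact h

theorem hom_eq_one (hρ : RS ρ) (hf : Finite (Subgroup.center G)) (A : Type) [CommGroup A]
    (f : G →* A) : f = 1 := by
  have h1 := commutator_eq_top hρ hf
  have h2 : commutator G ≤ f.ker := Abelianization.commutator_subset_ker f
  rw [h1] at h2
  exact MonoidHom.ext fun x => h2 (Subgroup.mem_top x)

end Vale.Agent.P092.H259.Re
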